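import Vale.Agent.P336W.Fin4
import Vale.Agent.P336W.FinalA
import Vale.Agent.P336W.Asym4

/-!
# P336: depth-three circuits whose middle gates are ANDs of blocks of small total size
-/

namespace Vale.Agent.Results.P336.Blocks

open Vale.Agent.P336W

/-- For every `0 < ε < 1` there is `δ > 0` such that for all large primes `p`, with
`D = ⌊p ^ (1 - ε)⌋`, every OR-AND-OR circuit that computes the explicit function `InCode p D` of
`n` variables, `p ≤ n ≤ 2 p`, satisfies: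
(1) if for every middle gate there are sets of at most `p ^ (1 - ε)` variables each, of total size
at most `δ p log p`, such that every bottom gate read by the middle gate reads variables of one of
these sets only, then the top gate reads at least `2 ^ (p ^ (1 - ε))` middle gates;
(2) if for every middle gate the distinct variable sets of the bottom gates it reads have total
size at most `δ p log p`, then the circuit has at least `2 ^ (p ^ (1 - ε))` gates;
(3) if every middle gate sees at most `m` distinct variable sets (of any sizes), then the circuit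
has at least `2 ^ (p ^ (1 - ε))` gates or `m log₂ (size) ≥ δ p log p`. -/
theorem result : ∀ ε : ℝ, 0 < ε → ε < 1 → ∃ δ > (0 : ℝ), ∃ p0 : ℕ, ∀ p ≥ p0, p.Prime →
    ∀ D : ℕ, D = ⌊(p : ℝ) ^ (1 - ε)⌋₊ →
      p ≤ Fintype.card (Var p D) ∧ Fintype.card (Var p D) ≤ 2 * p ∧
      ∀ C : Circuit (Var p D), (∀ z, C.Accepts z ↔ InCode p D z) →
        ((∀ j ∈ C.top, ∃ 𝒯 : Finset (Finset (Var p D)),
            (∀ b ∈ C.middle j, ∃ T ∈ 𝒯, varSet (C.bottom b) ⊆ T) ∧
            (∀ T ∈ 𝒯, (T.card : ℝ) ≤ (p : ℝ) ^ (1 - ε)) ∧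
            ((∑ T ∈ 𝒯, T.card : ℕ) : ℝ) ≤ δ * (p * Real.log p)) →
          (2 : ℝ) ^ ((p : ℝ) ^ (1 - ε)) ≤ C.top.card) ∧
        ((∀ j ∈ C.top, ((∑ a ∈ C.patterns j, a.card : ℕ) : ℝ) ≤ δ * (p * Real.log p)) →
          (2 : ℝ) ^ ((p : ℝ) ^ (1 - ε)) ≤ C.size) ∧
        (∀ m : ℕ, (∀ j ∈ C.top, (C.patterns j).card ≤ m) →
          (2 : ℝ) ^ ((p : ℝ) ^ (1 - ε)) ≤ C.size ∨
          δ * (p * Real.log p) ≤ m * Real.logb 2 C.size) := by
  intro ε h0 h1
  obtain ⟨δ, hδ, p0, H⟩ := asym3 ε h0 h1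
  refine ⟨δ, hδ, max p0 2, fun p hp hpp D hD => ?_⟩
  have hp0 : p0 ≤ p := le_trans (le_max_left _ _) hp
  have hp2 : 2 ≤ p := le_trans (le_max_right _ _) hp
  obtain ⟨hD1, hsz, H1, H2⟩ := H p hp0 D hD
  have hX0 : (0 : ℝ) ≤ δ * (p * Real.log p) := by
    have : (1 : ℝ) ≤ p := by exact_mod_cast (by omega : 1 ≤ p)
    have := Real.log_nonneg this
    positivity
  refine ⟨?_, ?_, fun C hC => ⟨fun hI => ?_, fun hI => ?_, fun m hm => ?_⟩⟩
  · simp only [Fintype.card_sum, Fintype.card_prod, Fintype.card_fin]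
    omega
  · simp only [Fintype.card_sum, Fintype.card_prod, Fintype.card_fin]
    omega
  · by_contra hcon
    rw [not_le] at hcon
    have hK0 : (0 : ℝ) ≤ (p : ℝ) ^ (1 - ε) := by positivity
    obtain ⟨s, w, M, R, h, htop, hw, hM1, c1, hh, c2, c3, c4⟩ :=
      asym4 h1 hp2 hD H2 ⌊δ * (p * Real.log p)⌋₊ C.top.card ⌊(p : ℝ) ^ (1 - ε)⌋₊ hcon
        (Nat.floor_le hK0) (Nat.floor_le hX0)
    refine fin4 hpp hD1 C hC s _ _ w M R h htop (fun j hj => ?_) hw hM1 c1 hh c2 c3 c4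
    obtain ⟨𝒯, a1, a2, a3⟩ := hI j hj
    exact ⟨𝒯, a1, fun T hT => Nat.le_floor (a2 T hT), Nat.le_floor a3⟩
  · by_contra hcon
    rw [not_le] at hcon
    obtain ⟨s, w, M, R, h, hs, hSs, hw, c1, hh, c2, c3, c4⟩ :=
      H2 ⌊δ * (p * Real.log p)⌋₊ C.size (two_le_size C hC) hcon (Nat.floor_le hX0)
    exact fin3 hpp hD1 C hC s _ w M R h hs hSs (fun j hj => Nat.le_floor (hI j hj)) hw c1 hh
      c2 c3 c4
  · by_contra hcon
    rw [not_or, not_le, not_le] at hcon
    obtain ⟨s, w, M, R, h, hs, hSs, hw, c1, hh, c2, c3, c4⟩ :=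
      H1 m C.size (two_le_size C hC) hcon.1 hcon.2
    exact fin2 hpp hD1 C hC s m w M R h hs hSs hm hw c1 hh c2 c3 c4

end Vale.Agent.Results.P336.Blocks
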