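import Vale.Agent.P336.Main

/-!
# P336: an explicit function that needs top fan-in `2 ^ (n ^ (1 - ε))` in depth three when every
middle gate is an AND of arbitrary functions of few variables with few incidences
-/

namespace Vale.Agent.Results.P336.FewIncidences

open Vale.Agent.P336

/-- Let `0 < ε < 1`, `n = 2 ^ m`, let `K` be the field with `n` elements and let `f` be the function
of `n` bits (indexed by `K`) that is `1` iff the power sums of order `j < ⌊n ^ (1 - ε)⌋` of the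
support vanish.  If `f` is the OR of `s` middle gates, each of them the AND of arbitrary functions of
at most `k` variables that together read at most `w n` inputs, where `(8 m) ^ (2 w) ≤ n ^ ε` and
`2 w k ≤ n ^ (1 - ε)`, then `s ≥ 2 ^ (n ^ (1 - ε))`. -/
theorem result (ε : ℝ) (he0 : 0 < ε) (he1 : ε < 1) (m w k : ℕ) (hw : 1 ≤ w)
    (h1 : ((8 * m : ℕ) : ℝ) ^ (2 * w) ≤ ((2 : ℝ) ^ m) ^ ε)
    (h2 : ((2 * w * k : ℕ) : ℝ) ≤ ((2 : ℝ) ^ m) ^ (1 - ε))
    (K : Type) [Field K] [Fintype K] [DecidableEq K] (hK : Fintype.card K = 2 ^ m)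
    (s : ℕ) (G : Fin s → MiddleGate K)
    (hk : ∀ i j, ((G i).reads j).card ≤ k)
    (hinc : ∀ i, ∑ j, ((G i).reads j).card ≤ w * 2 ^ m)
    (hf : ∀ x : K → Bool, InCode ⌊((2 : ℝ) ^ m) ^ (1 - ε)⌋₊ x ↔ ∃ i, (G i).Accepts x) :
    (2 : ℝ) ^ (((2 : ℝ) ^ m) ^ (1 - ε)) ≤ s :=
  main_real he0 he1 hw h1 h2 hK G hk hinc hf

end Vale.Agent.Results.P336.FewIncidences
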