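import Vale.Agent.P336W.Fin2
import Vale.Agent.P336W.FinalB
import Vale.Agent.P336W.Asym2

/-!
# P336: depth-three circuits whose middle gates see few distinct variable sets
-/

namespace Vale.Agent.Results.P336.PatternTradeoff

open Vale.Agent.P336W

/-- For every `0 < ε < 1` there is `δ > 0` such that for all large primes `p`, with
`D = ⌊p ^ (1 - ε)⌋`, the explicit function `InCode p D` of `n` variables, `p ≤ n ≤ 2 p`, satisfies:
if an OR-AND-OR circuit computes it and the bottom gates read by any one middle gate have at most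
`m` distinct variable sets, then the circuit has at least `2 ^ (p ^ (1 - ε))` gates, or
`m log₂ (size) ≥ δ p log p`.  In particular (`ε ≤ 1 / 4`), if `m ≤ √(δ p log p)`, then the circuit
has at least `2 ^ √(δ p log p)` gates. -/
theorem result : ∀ ε : ℝ, 0 < ε → ε < 1 → ∃ δ > (0 : ℝ), ∃ p0 : ℕ, ∀ p ≥ p0, p.Prime →
    ∀ D : ℕ, D = ⌊(p : ℝ) ^ (1 - ε)⌋₊ →
      p ≤ Fintype.card (Var p D) ∧ Fintype.card (Var p D) ≤ 2 * p ∧
      ∀ C : Circuit (Var p D), (∀ z, C.Accepts z ↔ InCode p D z) →
        (∀ m : ℕ, (∀ j ∈ C.top, (C.patterns j).card ≤ m) →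
          (2 : ℝ) ^ ((p : ℝ) ^ (1 - ε)) ≤ C.size ∨
          δ * (p * Real.log p) ≤ m * Real.logb 2 C.size) ∧
        (ε ≤ 1 / 4 →
          (∀ j ∈ C.top, ((C.patterns j).card : ℝ) ≤ Real.sqrt (δ * (p * Real.log p))) →
          (2 : ℝ) ^ Real.sqrt (δ * (p * Real.log p)) ≤ C.size) := by
  intro ε h0 h1
  obtain ⟨δ, hδ, p0, H⟩ := asym2 ε h0 h1
  refine ⟨min δ 1, lt_min hδ one_pos, max p0 16, fun p hp hpp D hD => ?_⟩
  have hp0 : p0 ≤ p := le_trans (le_max_left _ _) hp
  have hp16 : 16 ≤ p := le_trans (le_max_right _ _) hp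
  obtain ⟨hD1, hsz, H⟩ := H p hp0 D hD
  have hδ1 : min δ 1 ≤ 1 := min_le_right _ _
  have hδ0 : 0 < min δ 1 := lt_min hδ one_pos
  have hX0 : 0 ≤ (p * Real.log p) := by
    have := (log_le_sqrt2 hp16 (ε := 0) (δ := 1) (by norm_num) one_pos le_rfl).1
    rwa [one_mul] at this
  refine ⟨?_, ?_, fun C hC => ?_⟩
  · simp only [Fintype.card_sum, Fintype.card_prod, Fintype.card_fin]
    omega
  · simp only [Fintype.card_sum, Fintype.card_prod, Fintype.card_fin]
    omega
  · have main : ∀ m : ℕ, (∀ j ∈ C.top, (C.patterns j).card ≤ m) →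
          (2 : ℝ) ^ ((p : ℝ) ^ (1 - ε)) ≤ C.size ∨
          min δ 1 * (p * Real.log p) ≤ m * Real.logb 2 C.size := by
      intro m hm
      by_contra hcon
      rw [not_or, not_le, not_le] at hcon
      obtain ⟨hc1, hc2⟩ := hcon
      have hc3 : (m : ℝ) * Real.logb 2 C.size < δ * (p * Real.log p) :=
        lt_of_lt_of_le hc2 (mul_le_mul_of_nonneg_right (min_le_left _ _) hX0)
      obtain ⟨s, w, M, R, h, hs, hSs, hw, c1, hh, c2, c3, c4⟩ :=
        H m C.size (two_le_size C hC) hc1 hc3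
      exact fin2 hpp hD1 C hC s m w M R h hs hSs hm hw c1 hh c2 c3 c4
    refine ⟨main, fun hε hm => ?_⟩
    obtain ⟨hY0, hY⟩ := log_le_sqrt2 hp16 hε hδ0 hδ1
    set Y := min δ 1 * (p * Real.log p) with hYdef
    have hsize : (0 : ℝ) < C.size := by
      have := two_le_size C hC
      exact_mod_cast (by omega : 0 < C.size)
    rcases main ⌊Real.sqrt Y⌋₊ (fun j hj => Nat.le_floor (hm j hj)) with h | h
    · exact le_trans (Real.rpow_le_rpow_of_exponent_le (by norm_num) hY) h
    · have hlog0 : 0 ≤ Real.logb 2 C.size := by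
        apply Real.logb_nonneg (by norm_num)
        have := two_le_size C hC
        exact_mod_cast (by omega : 1 ≤ C.size)
      have h2 : Y ≤ Real.sqrt Y * Real.logb 2 C.size :=
        h.trans (mul_le_mul_of_nonneg_right (Nat.floor_le (Real.sqrt_nonneg _)) hlog0)
      have h3 : Real.sqrt Y ≤ Real.logb 2 C.size := by
        rcases eq_or_lt_of_le (Real.sqrt_nonneg Y) with h4 | h4
        · rw [← h4]
          exact hlog0
        · have h5 : Real.sqrt Y * Real.sqrt Y ≤ Real.sqrt Y * Real.logb 2 C.size := by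
            rw [Real.mul_self_sqrt hY0]
            exact h2
          exact le_of_mul_le_mul_left h5 h4
      rwa [Real.le_logb_iff_rpow_le (by norm_num) hsize] at h3

end Vale.Agent.Results.P336.PatternTradeoff
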